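import Crest.Agent.X212.Nd18.Fk
import Crest.Agent.X212.Add46.Bg

/-!
# Row 212, HD + IXA + LV (helper82): the leaves
-/

set_option autoImplicit false
set_option linter.unusedSectionVars false
noncomputable section
open scoped Manifold ContDiff Topology
open MeasureTheory Set Function Filter Classical

namespace Crest.Agent.X212.Hd82
open An M G75 Nd18 Rf65 Pte3 Fk18 Add46
open An.Job (SolOn)

section gen
variable (ι κ lam : Type) [Fintype ι] [Fintype κ] [Fintype lam]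

/-- **LEAF MD**: modules exist on closed manifolds -/
def MdStmt : Prop := ∀ (Z : Mf 4) [CompactSpace Z.M] (B : Base Z.M ι lam), B.OK Z.I →
  ∃ m : Md Z.M ι lam, m.OK Z.I B

/-- **LEAF EXS**: standard configurations exist -/
def ExsStmt : Prop := ∀ (Z : Mf 4) (b : BG κ lam Z) (β : ∀ a, (b.E a).X.C), b.OK ∅ →
  (∃ m : Md Z.M (Option κ) lam, m.OK Z.I b.B) → (∀ a, (b.E a).X.D.Adm (β a)) → ∃ c, b.Std c β

/-- **LEAF STZ**: standard configurations of almost the same level -/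
def StzStmt : Prop := ∀ (Z : Mf 4) (b : BG κ lam Z) (r : ℕ) (c : Cfg Z.M (Option κ) lam r)
  (β : ∀ a, (b.E a).X.C), b.OK ∅ → c.Adm b.B b.G → (∀ a, (b.E a).X.D.Adm (β a) ∧
    ∃ ζ, (b.E a).K.Lim c (β a) ζ (bif (b.E a).out then atTop else atBot)) →
  IntegrableOn (c.m.kd b.B b.G.F c.W) b.O b.G.F.μ → ∀ η > 0, ∃ c₀, b.Std c₀ β ∧
    |b.kap b.O c₀ - ∫ x in b.O, c.m.kd b.B b.G.F c.W x ∂b.G.F.μ| < η

end gen

variable {κ lam : Type} [Fintype κ] [Fintype lam] [DecidableEq lam]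

section job
variable {Wi : Type} {X : Mf 4} {A : Type} [Fintype A] {M : Mark X A κ} {W : World M}
  {N : ML M lam} {Λ : Lns W N} {A' h : Type} [Fintype A'] [DecidableEq A'] [Fintype h] {r n : ℕ}
  (J : Job Wi Λ A' h r n) (c : M.Cl)

/-- **LEAF CHX**: from a good chart to the index of a standard configuration -/
def ChxL : Prop := ∀ a σ p δ q (y : J.Obc c) d (b : Bp J c) f (γ : ∀ i : Ed c, (jX J i.1).C),
  PG J c σ p → SolOn p σ q y → ChA a δ σ p q y d → b.s = y.s → p.P' = spO f p.P →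
  (∀ i ∈ EdP c p.P, (J.xs i.1).D.Adm (γ i) ∧ (J.xs i.1).D.Eqv (y.β i.1 i.2) (γ i) ∧
    Fz κ (lam ⊕ lam) 8 (jX J i.1) f (γ i) δ) →
  ∃ x, (jBG b p.P).Std x (fun i => γ i.1) ∧ (jBG b p.P).Ix (spO f (W.un c p.P)) x 8 δ d ∧
    ∀ π ∈ p.P, (jBG b p.P).kap (W.pc c π) x = y.kap (W.pc c π)

/-- **LEAF SPX**: the index is the sum of the indices of the pieces -/
def SpxL : Prop := ∀ (b : Bp J c) (P : Finset (Reg A)) f (γ : ∀ i : Ed c, (jX J i.1).C) x δ d,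
  J.OK → (∀ π ∈ P, M.sys.Piece c.1 π) → 0 < δ → δ ≤ Cht98.dl0 →
  (∀ i ∈ EdP c ↑P, Fz κ (lam ⊕ lam) 8 (jX J i.1) f (γ i) δ) →
  (jBG b ↑P).Std x (fun i => γ i.1) → (jBG b ↑P).Ix (spO f (W.un c ↑P)) x 8 δ d →
  ∃ e : Reg A → ℤ, d = ∑ π ∈ P, e π ∧ ∀ π ∈ P, (jBG b {π}).Std x (fun i => γ i.1) ∧
    (jBG b {π}).Ix (spO f (W.un c {π})) x 8 δ (e π)

end job

variable (κ lam) in
/-- a property of all jobs -/
def AllJ (Q : ∀ {Wi : Type} {X : Mf 4} {A : Type} [Fintype A] {M : Mark X A κ} {W : World M}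
    {N : ML M lam} {Λ : Lns W N} {A' h : Type} [Fintype A'] [DecidableEq A'] [Fintype h] {r n : ℕ}
    (_ : Job Wi Λ A' h r n) (_ : M.Cl), Prop) : Prop :=
  ∀ (Wi : Type) (X : Mf 4) (A : Type) [Fintype A] (M : Mark X A κ) (W : World M) (N : ML M lam)
    (Λ : Lns W N) (A' h : Type) [Fintype A'] [DecidableEq A'] [Fintype h] (r n : ℕ)
    (J : Job Wi Λ A' h r n) (c : M.Cl), Q J c

variable {Lm : LM κ lam}

section rad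
variable {S : Scene Lm} {i : S.L} {W : World S.M} {Λ : Lns W (S.N i)} {Wi A' h : Type} [Fintype A']
  [DecidableEq A'] [Fintype h] {r n : ℕ} {J : Job Wi Λ A' h r n} {c : S.M.Cl}

/-- a region `π₀` which is bounded by pinch walls -/
structure Rt (J : Job Wi Λ A' h r n) (c c₀ : S.M.Cl) (π₀ : Reg S.A) : Prop where
  hW : W.Nrm
  hΛ : Λ.Nrm
  ok : J.OK
  hm : cylW c ⊆ J.m.1
  c0 : c₀.1 = {a ∈ c.1 | S.M.pin a}
  pc : S.M.sys.Piece c₀.1 π₀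

/-- additivity for standard configurations on the pieces inside `π₀` -/
def RadAt (b : Bp J c) (π₀ : Reg S.A) (β sg l2 : ℝ) : Prop :=
  ∀ (x : Reg S.A → C0 (W.Z c) κ (lam ⊕ lam)) (γ : ∀ a, (jX J a).C),
    (∀ ρ, S.In c π₀ ρ → (jBG b {ρ}).Std (x ρ) fun i => γ i.1.1) →
    let k := ∑ᶠ ρ ∈ {ρ | S.In c π₀ ρ}, (jBG b {ρ}).kap (W.pc c ρ) (x ρ)
    ∀ δ f (d : Reg S.A → ℤ) (e : S.A → ℤ), 0 < δ →
      δ ≤ Cht98.dl0 → (∀ a ∈ cylW c ∩ S.M.sys.inn π₀, Fz κ (lam ⊕ lam) 8 (jX J a) f (γ a) δ ∧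
        (jX J a).bg.Ix (spO f univ) (cy (γ a)) 8 δ (e a)) →
      (∀ ρ, S.In c π₀ ρ → (jBG b {ρ}).Ix (spO f (W.un c {ρ})) (x ρ) 8 δ (d ρ)) →
      (∃ m : ℤ, k = (l2 - sg) / 4 + m) ∧
      (∑ᶠ ρ ∈ {ρ | S.In c π₀ ρ}, (d ρ : ℝ)) = (bif f then 6 else 8) * k - 3 * β +
        (bif f then (l2 - sg) / 2 else 0) + ∑ᶠ a ∈ cylW c ∩ S.M.sys.inn π₀, (e a : ℝ)

end rad

variable (Lm) in
/-- **LEAF RAD** -/
def RadStmt : Prop := ∀ (S : Scene Lm) (i : S.L) (W : World S.M) (Λ : Lns W (S.N i)) (Wi A' h : Type)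
  [Fintype A'] [DecidableEq A'] [Fintype h] (r n : ℕ) (J : Job Wi Λ A' h r n) (c c₀ : S.M.Cl)
  (b : Bp J c) π₀ β sg l2, Rt J c c₀ π₀ → S.Nb i (S.M.sys.U π₀) β sg l2 → RadAt b π₀ β sg l2

/-! ### the head -/

/-- a world over `y`, broken along `a` and `s` -/
structure HW (y : G75.YD κ lam) : Type 1 where
  W : World y.M
  B : Bas y.X univ
  Λ : Lns W y.N
  b : LBas y.X univ
  m : y.M.Cl
  c : y.M.Cl
  ρ : Bool → Reg y.A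
  K : Bool → Nk (yD y) (Λ.B m c) (Λ.G m c (0, c.1.indicator 1))

namespace HW
variable {y : G75.YD κ lam} (w : HW y)

/-- the piece on the side `e` of `a` -/
@[reducible] def b1 (e : Bool) : B1 (yD y) (w.W.Z w.c) :=
  ⟨w.Λ.B w.m w.c, w.Λ.G w.m w.c (0, w.c.1.indicator 1), w.W.un w.c {w.ρ e}, w.K e⟩

/-- the reference -/
@[reducible] def hd : Hd (yD y) := ⟨_, _, w.b1 false, w.b1 true, 8, 0⟩

structure OK : Prop where
  std : Std w.W w.B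
  lstd : LStd w.Λ w.b
  nrm : w.W.Nrm
  lnrm : w.Λ.Nrm
  c : w.c.1 = {y.a, y.s}
  m : y.a ∈ w.m.1
  pc : ∀ e, y.M.sys.Piece w.c.1 (w.ρ e) ∧ w.ρ e y.a = some e
  nk : ∀ e, IsNk (S := Ink3.xs0 Empty y.N y.a) y.a (some e) id (w.K e)

end HW

variable (κ lam) in
/-- **LEAF HD** (from MD, EXS) -/
def HwStmt : Prop := ∀ y : G75.YD κ lam, y.OK → ∃ w : HW y, w.OK ∧ w.hd.OK

variable (Lm) in
/-- **LEAF MIX-B**: base data which are those of the scene on the left of `a` and those of `y` on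
the head -/
def MxbStmt : Prop := ∀ (y : G75.YD κ lam) (S : Scene Lm) (t : TD y S) R c (i : S.L)
  (B₁ : Bas S.X univ) (b₁ : LBas S.X univ) (B₀ : Bas y.X univ) (b₀ : LBas y.X univ) (u : ℝ),
  y.OK → t.OK R c → ∃ (B : Bas S.X univ) (b : LBas S.X univ),
    (∀ x, (S.M.bn t.a).s x ≤ -1 / 2 → Met55.Co (Met55.atx (B.r 0) x) (Met55.atx (B₁.r u) x) ∧
      Line51.th S.X.I (t.wL i) x + b₁.b u x = b.b 0 x) ∧
    ∀ x, 1 / 2 ≤ (y.M.bn y.a).s x → (y.M.bn y.s).s x ≤ -1 / 2 →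
      Met55.Co (fun n => Dr59.mf y.X.I S.X.I t.IH.ψ x (Met55.atx (B₀.r 0) x n))
        (Met55.atx (B.r 0) (t.IH.ψ x)) ∧
      Line51.th y.X.I t.wH x + Dr59.pm y.X.I S.X.I t.IH.ψ (b.b 0) x = b₀.b 0 x

/-- a world over the scene in which `bL` and `bR` are the two sides of the wall `a` -/
structure Mx {ZL ZR : Mf 4} (bL : BG κ (lam ⊕ lam) ZL) (bR : BG κ (lam ⊕ lam) ZR) (S : Scene Lm)
    (i : S.L) : Type 1 where
  W : World S.M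
  Λ : Lns W (S.N i)
  J : Job Empty Λ Empty Empty 0 0
  c : S.M.Cl
  c₀ : S.M.Cl
  b : Bp J c
  π₀ : Reg S.A
  ρ : Bool → Reg S.A
  pL : GP bL (jBG b {ρ false})
  pR : GP bR (jBG b {ρ true})
  fL : bL.A ≃ EdP c {ρ false}
  fR : bR.A ≃ EdP c {ρ true}

structure Mx.OK {ZL ZR : Mf 4} {bL : BG κ (lam ⊕ lam) ZL} {bR : BG κ (lam ⊕ lam) ZR} {S : Scene Lm}
    {i : S.L} (m : Mx bL bR S i) (a : S.A) (U : Set S.X.M) : Prop where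
  rt : Rt m.J m.c m.c₀ m.π₀
  hU : S.M.sys.U m.π₀ = U
  ins : ∀ ρ, S.In m.c m.π₀ ρ ↔ ∃ e, ρ = m.ρ e
  re : ∀ e, m.ρ e a = some e
  cyl : cylW m.c = {a}
  inn : a ∈ S.M.sys.inn m.π₀
  gL : m.pL.Gl m.fL
  gR : m.pR.Gl m.fR

variable (Lm) in
/-- **LEAF MIX** (from MIX-B) -/
def MixStmt : Prop := ∀ (y : G75.YD κ lam) (w : HW y) (S : Scene Lm) (t : TD y S) R c (D : S.Dat)
  (i : S.L) (N : ND (yY y).M (lam ⊕ lam)) (Wi A' h : Type) [Fintype A'] [DecidableEq A'] [Fintype h]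
  (r n : ℕ) (J : Job Wi (D.Λ i) A' h r n) (e : S.M.Cl) (b : Bp J e) (π : Reg S.A) ty
  (g : (yY y).M ≃ₘ^∞⟮(yY y).I, (S.M.bn t.a).Y.I⟯ (S.M.bn t.a).Y.M),
  y.OK → w.OK → w.hd.OK → S.OK → t.OK R c → J.OK → J.xs t.a = ⟨yY y, y.N.cy y.a, N, ty⟩ →
  HEq (J.g t.a) g → (∀ q, t.IH.ψ ((y.M.bn y.a).j q) = (S.M.bn t.a).j (g q.1, q.2)) →
  (∀ x, (J.Θ b.s).2 x ≠ 0 → x = t.a ∨ t.Sd false x ∨ t.Sd true x) →
  (∀ x ∈ e.1, t.Sd false x → S.M.pin x) → S.M.sys.Piece e.1 π → π t.a = some false →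
  ∃ m : Mx (jBG b {π}) ((w.b1 true).bg N false) S t.i₀,
    m.OK t.a (t.op π ∩ (S.M.sys.w t.s).sd false)

/-! ### combinatorics and numbers of a face -/

/-- the regions, their walls and their numbers -/
structure Cm {y₀ : G75.YD κ lam} {P : Pk y₀} {S : Scene Lm} {z : Z0 P S} (Z : Z1 z) (c₀ : S.M.Cl) :
    Prop where
  c0 : c₀.1 = {a ∈ Z.e.1 | S.M.pin a}
  hm : cylW Z.e ⊆ Z.F.m.1
  act : ∀ s ∈ Job.cl Z.ce, ∀ x, (Z.F.Θ s).2 x ≠ 0 → x = z.t.a ∨ z.t.Sd false x ∨ z.t.Sd true x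
  pin : ∀ x ∈ Z.e.1, z.t.Sd false x → S.M.pin x
  nb : ∀ b, ∀ π ∈ Z.Rg b, ∃ β sg l2, NbR z.t Z.i π β sg l2
  sd : ∀ b, ∀ π ∈ Z.Rg b, π z.t.a = none ∨ π z.t.a = some b
  ed : ∀ b, ∀ π ∈ Z.Rg b, ∀ x ∈ cylW Z.e, ∀ o, ou Z.e π x = some o →
    x = z.t.a ∧ π x = some o ∨ x ≠ z.t.a ∧ o = true
  ne : ∀ b, ∀ π ∈ Z.Rg b, ∀ l ∈ LE Z.e π, ou Z.e π ≠ hp l.1 false ∧ l.1 ≠ z.t.a ∧
    ou Z.e π l = some true
  L : ∀ π ∈ Z.Rg false, LE Z.e π = ∅ ∧ ou Z.e π = π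
  cl : ∀ b, ∀ π ∈ Z.Rg b, π z.t.a = none → S.M.sys.Piece c₀.1 π ∧
    cylW Z.e ∩ S.M.sys.inn π = Subtype.val '' (↑(LE Z.e π) : Set S.ls)
  R : ∀ ρ ∈ Z.Rg false, ρ z.t.a = some false → ∀ π ∈ Z.Rg true, π z.t.a = some true →
    ∃ π₀ β sg l2, S.M.sys.Piece c₀.1 π₀ ∧ S.Nb Z.i (S.M.sys.U π₀) β sg l2 ∧
      β = bR z.t Z.i π + bR z.t Z.i ρ - z.t.β₀ ∧
      l2 - sg = sR z.t Z.i π + sR z.t Z.i ρ - (z.t.l₀ - z.t.s₀) ∧
      (∀ ρ', S.In Z.e π₀ ρ' ↔ ρ' = ρ ∨ S.In Z.e π ρ') ∧ ¬S.In Z.e π ρ ∧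
      cylW Z.e ∩ S.M.sys.inn π₀ = insert z.t.a (Subtype.val '' (↑(LE Z.e π) : Set S.ls))

variable (Lm) in
/-- **LEAF CM** -/
def CmStmt : Prop := ∀ (y₀ : G75.YD κ lam) (P : Pk y₀), AllZ Lm P fun Z => Z.Sm → ∃ c₀, Cm Z c₀

end Crest.Agent.X212.Hd82
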