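import Crest.Agent.X212.Hd82.Left

/-!
# Row 212, HD + IXA + LV (helper82): pieces with a level and an index
-/

set_option autoImplicit false
set_option linter.unusedSectionVars false
noncomputable section
open scoped Manifold ContDiff Topology
open MeasureTheory Set Function Filter Classical

namespace Crest.Agent.X212.Hd82
open An M G75 Nd18 Rf65 Add46 Mod61 Nk89 Cht98 Rdc90

variable {κ lam : Type} [Fintype κ] [Fintype lam] [DecidableEq lam]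

section job
variable {Wi : Type} {X : Mf 4} {A : Type} [Fintype A] {M : Mark X A κ} {W : World M} {N : ML M lam}
  {Λ : Lns W N} {A' h : Type} [Fintype A'] [DecidableEq A'] [Fintype h] {r n : ℕ}
  {J : Job Wi Λ A' h r n} {c : M.Cl} {P P' : Set (Reg A)} {δ : ℝ}

/-- a standard configuration on the piece `ρ` with limits `γ`, level `k` and index `d` -/
def Pd (b : Bp J c) (γ : ∀ a, (jX J a).C) (δ : ℝ) (f : Bool) (ρ : Reg A) (k : ℝ) (d : ℤ) : Prop :=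
  ∃ x, (jBG b {ρ}).Std x (fun i => γ i.1.1) ∧ (jBG b {ρ}).Ix (spO f (W.un c {ρ})) x 8 δ d ∧
    (jBG b {ρ}).kap (W.pc c ρ) x = k

theorem un_spO (f : Bool) (P : Set (Reg A)) : W.un c (spO f P) = spO f (W.un c P) := by
  cases f; exacts [biUnion_empty _, rfl]

theorem spO_sub {α : Type} (f : Bool) (P : Set α) : spO f P ⊆ P := by
  cases f; exacts [empty_subset _, subset_rfl]

section br
variable (hJ : J.OK) (hP : ∀ π ∈ P, M.sys.Piece c.1 π) (hs : P' ⊆ P)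
  (h0 : 0 < δ) (h1 : δ ≤ dl0) {y : J.Obc c} (g : Go δ y P)
include hJ hP hs h0 h1

/-- `Add46.jCh` with hypotheses on the ends of `P` only -/
theorem jCh' (hN : ∀ i ∈ EdP c P, Ink3.Nil (J.xs i.1).N)
    (hF : ∀ i ∈ EdP c P, ∀ f, Fz κ (lam ⊕ lam) 8 (jX J i.1) f (y.β i.1 i.2) δ)
    {o : Ref (g.bp.Fm P P' (fun _ : T0 => y.s) δ)} {R : ℝ} {x : Pnt o 0} (hR : 5 ≤ R)
    (l : ∀ i, (g.bp.En P P' _ δ i).Lit o R) (z : o.Φ0 = 0) (e : Nk89.Rep y.x.con x) :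
    (jGR hJ hP hs g.bp h0 h1).Ch 8 o R ((g.bp.Fm P P' (fun _ : T0 => y.s) δ).eq0 0 0 0) := by
  let G := jGR hJ hP hs g.bp h0 h1
  have hl : G.X.Lit o R := ⟨hR, l⟩
  have q := eqv_go hJ hP hs h0 h1 g hR l e
  refine ⟨hl, aff_eq0 G.X hl z fun a ha t ht => ?_, fun i h h' => ⟨?_, ?_⟩⟩
  · obtain ⟨i, hi⟩ := G.f.surjective ⟨a, ha⟩
    obtain rfl : i.1 = a := congrArg Subtype.val hi
    have k := (hl.lit i.1).adm G.X.ok (G.X.okP _) hl.le ht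
    have b := g.bs _ i.2
    exact flt_eqv b.ok b.adm k (eqv_symm b.ok k b.adm (q i t)) b.flat
  · have b := g.bs _ i.2
    refine hF _ i.2 (decide ((G.X.P i.1).U R ⊆ W.un c P')) _ h _ h' ?_ ?_
    · by_cases k : (G.X.P i.1).U R ⊆ W.un c P'
      · rw [decide_eq_true k]; exact eq_univ_of_forall fun _ => k
      · rw [decide_eq_false k]; exact eq_empty_of_forall_notMem fun _ => k
    · convert eqv_symm b.ok h b.adm (q i 0) using 1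
      have := funext b.zr
      generalize y.β i.1.1 i.1.2 = β at this
      obtain ⟨m, w, Φ, z⟩ := β
      obtain rfl : Φ = fun _ => 0 := this
      congr 1
      · exact Bool.cond_self _ _
      · exact Subsingleton.elim _ _
  · exact loc_eq0 G.X hl (G.f i).2 (hN _ i.2) h h'

theorem toIx' (hC : ChStmt (W.Z c) κ (lam ⊕ lam) 8) (hN : ∀ i ∈ EdP c P, Ink3.Nil (J.xs i.1).N)
    (hF : ∀ i ∈ EdP c P, ∀ f, Fz κ (lam ⊕ lam) 8 (jX J i.1) f (y.β i.1 i.2) δ) {d : ℤ}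
    (hd : Rf65.Ix δ y P P' d) : ∃ c₀ : C0 (W.Z c) κ (lam ⊕ lam),
      (jBG g.bp P).Std c₀ (fun i => y.β i.1.1 i.1.2) ∧ (jBG g.bp P).Ix (W.un c P') c₀ 8 δ d ∧
      ∀ O, IsClopen O → O ⊆ W.un c P → (jBG g.bp P).kap O c₀ = y.kap O := by
  obtain ⟨⟨s, br, hO⟩, o, R, x, e, hR, l, z, rp, hd⟩ := hd
  obtain rfl : s = y.s := e
  exact hC _ _ δ (jGR hJ hP hs g.bp h0 h1) o R 0 0 0 _ x y.x.con _ d (jBG_ok hJ hP hs _)
    (jCh' hJ hP hs h0 h1 g hN hF hR l z rp) (Subsingleton.elim (α := T0) _ _) rp hd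
    (fun i => ⟨(g.bs _ i.2).adm, 1, lim_go h0 g i⟩) g.adm fun _ _ => rfl

end br

/-- change of the limits -/
theorem std_eqv (L : StdStmt κ (lam ⊕ lam)) (hJ : J.OK) (hP : ∀ π ∈ P, M.sys.Piece c.1 π)
    {b : Bp J c} {x} {γ γ' : ∀ i : EdP c P, (jX J i.1.1).C} (s : (jBG b P).Std x γ)
    (e : ∀ i, (J.xs i.1.1).D.Adm (γ' i) ∧ (J.xs i.1.1).D.Eqv (γ i) (γ' i)) :
    (jBG b P).Std x γ' := ⟨s.1, fun i =>
  L.2 _ (jBG b P) _ _ _ _ (jX_ok hJ _) (jBG_ok1 hJ b hP false) s.1 (s.2 i) (e i).1 (e i).2⟩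

/-- fillers -/
theorem pd_go (L : StdStmt κ (lam ⊕ lam)) (hC : ChStmt (W.Z c) κ (lam ⊕ lam) 8) (hJ : J.OK)
    {ρ : Reg A} (hρ : M.sys.Piece c.1 ρ) (h0 : 0 < δ) (h1 : δ ≤ dl0) {y : J.Obc c} (g : Go δ y {ρ})
    {γ : ∀ a, (jX J a).C} {f : Bool} {d : ℤ}
    (h : ∀ i ∈ EdP c {ρ}, Ink3.Nil (J.xs i.1).N ∧
      (∀ f, Fz κ (lam ⊕ lam) 8 (jX J i.1) f (y.β i.1 i.2) δ) ∧ (J.xs i.1).D.Adm (γ i.1) ∧
      (J.xs i.1).D.Eqv (γ i.1) (y.β i.1 i.2)) (hd : Rf65.Ix δ y {ρ} (spO f {ρ}) d) :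
    Pd g.bp γ δ f ρ (y.kap (W.pc c ρ)) d := by
  have hP : ∀ π ∈ ({ρ} : Set _), M.sys.Piece c.1 π := fun _ h => h ▸ hρ
  obtain ⟨x, k1, k2, k3⟩ := toIx' hJ hP (spO_sub f _) h0 h1 g hC (fun i hi => (h i hi).1)
    (fun i hi => (h i hi).2.1) hd
  refine ⟨x, std_eqv L hJ hP k1 fun i => ⟨(h _ i.2).2.2.1, ?_⟩, un_spO (W := W) (c := c) f {ρ} ▸ k2,
    k3 _ (Cyl58.isClopen_pc W.toCaps hρ) (un_one W.toCaps c ρ).ge⟩
  exact eqv_symm (g.bs _ i.2).ok (h _ i.2).2.2.1 (g.bs _ i.2).adm (h _ i.2).2.2.2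

/-- standard configurations of almost the same level -/
theorem pd_lim (L : IxL κ (lam ⊕ lam) 8) (hS : StzStmt κ (lam ⊕ lam)) (hJ : J.OK) {ρ : Reg A}
    (hρ : M.sys.Piece c.1 ρ) (h0 : 0 < δ) (h1 : δ ≤ dl0) (b : Bp J c) {r' : ℕ}
    {x : Cfg (W.Z c).M (Option κ) (lam ⊕ lam) r'} {β : ∀ i : EdP c {ρ}, (jX J i.1.1).C}
    (hx : x.Adm (J.B c) (J.G c b.s)) {γ : ∀ a, (jX J a).C} {f : Bool}
    (h : ∀ i : EdP c {ρ}, (J.xs i.1.1).D.Adm (β i) ∧ (∃ ζ, ((jBG b {ρ}).E i).K.Lim x (β i) ζ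
      (bif ((jBG b {ρ}).E i).out then atTop else atBot)) ∧ (J.xs i.1.1).D.Adm (γ i.1.1) ∧
      (J.xs i.1.1).D.Eqv (β i) (γ i.1.1) ∧ Fz κ (lam ⊕ lam) 8 (jX J i.1.1) f (γ i.1.1) δ)
    (hi : IntegrableOn (x.m.kd (J.B c) (J.G c b.s).F x.W) (W.un c {ρ}) (J.G c b.s).F.μ) {η : ℝ}
    (hη : 0 < η) : ∃ k d, Pd b γ δ f ρ k d ∧
      |k - ∫ z in W.pc c ρ, x.m.kd (J.B c) (J.G c b.s).F x.W z ∂(J.G c b.s).F.μ| < η := by
  have hP : ∀ π ∈ ({ρ} : Set _), M.sys.Piece c.1 π := fun _ h => h ▸ hρ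
  obtain ⟨x₀, k1, k2⟩ := hS _ (jBG b {ρ}) r' x β (jBG_ok1 hJ b hP false) hx
    (fun i => ⟨(h i).1, (h i).2.1⟩) hi η hη
  have k3 := std_eqv (γ' := fun i => γ i.1.1) L.std hJ hP k1 fun i => ⟨(h i).2.2.1, (h i).2.2.2.1⟩
  obtain ⟨d, hd⟩ := rz' L (jBG_ok1 hJ b hP f) k3 h0 h1 fun i => (h i).2.2.2.2
  exact ⟨_, d, ⟨x₀, k3, hd, rfl⟩, un_one W.toCaps c ρ ▸ k2⟩

/-- some standard configuration -/
theorem pd_ex (L : IxL κ (lam ⊕ lam) 8) (hJ : J.OK) (hW : W.Nrm) (hΛ : Λ.Nrm)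
    (hm : cylW c ⊆ J.m.1) {ρ : Reg A} (hρ : M.sys.Piece c.1 ρ) (h0 : 0 < δ) (h1 : δ ≤ dl0)
    (b : Bp J c) {γ : ∀ a, (jX J a).C} {f : Bool} (h : ∀ i : EdP c {ρ},
      (J.xs i.1.1).D.Adm (γ i.1.1) ∧ Fz κ (lam ⊕ lam) 8 (jX J i.1.1) f (γ i.1.1) δ) :
    ∃ k d, Pd b γ δ f ρ k d := by
  have hP : ∀ π ∈ ({ρ} : Set _), M.sys.Piece c.1 π := fun _ h => h ▸ hρ
  obtain ⟨x, hx⟩ := admJ hW hΛ hm b
  obtain ⟨x₀, k⟩ := Hd28.exists_std (β := fun i => γ i.1.1) (jBG_ok1 hJ b hP false) hx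
    fun i => (h i).1
  obtain ⟨d, hd⟩ := rz' L (jBG_ok1 hJ b hP f) k h0 h1 fun i => (h i).2
  exact ⟨_, d, x₀, k, hd, rfl⟩

end job

variable {Lm : LM κ lam} {S : Scene Lm} {i : S.L} {W : World S.M} {Λ : Lns W (S.N i)}
  {Wi A' h : Type} [Fintype A'] [DecidableEq A'] [Fintype h] {r n : ℕ} {J : Job Wi Λ A' h r n}
  {c : S.M.Cl}

/-- RAD for a list of the pieces -/
theorem radI {b : Bp J c} {π₀ : Reg S.A} {β sg l2 : ℝ} (R : RadAt b π₀ β sg l2) {I : Type}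
    [Nonempty I] (T : Finset I) (ρ : I → Reg S.A) (inj : InjOn ρ T)
    (hT : {ρ' | S.In c π₀ ρ'} = ρ '' T) {γ : ∀ a, (jX J a).C} {δ : ℝ} {f : Bool} (k : I → ℝ)
    (d : I → ℤ) (h : ∀ j ∈ T, Pd b γ δ f (ρ j) (k j) (d j)) (e : S.A → ℤ) (h0 : 0 < δ)
    (h1 : δ ≤ dl0) (hF : ∀ a ∈ cylW c ∩ S.M.sys.inn π₀, Fz κ (lam ⊕ lam) 8 (jX J a) f (γ a) δ ∧
      (jX J a).bg.Ix (spO f univ) (cy (γ a)) 8 δ (e a)) :
    (∃ m : ℤ, ∑ j ∈ T, k j = (l2 - sg) / 4 + m) ∧ ∑ j ∈ T, (d j : ℝ) =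
      fm f (∑ j ∈ T, k j) β (l2 - sg) + ∑ᶠ a ∈ cylW c ∩ S.M.sys.inn π₀, (e a : ℝ) := by
  have : Nonempty (C0 (W.Z c) κ (lam ⊕ lam)) := ⟨⟨⟨0, 0, 0, 0, 0⟩, 0, 0, 0⟩⟩
  choose! x h1' h2 h3 using h
  have hg : ∀ j ∈ T, invFunOn ρ T (ρ j) = j := fun j hj => inj.leftInvOn_invFunOn hj
  have := R (fun ρ' => x (invFunOn ρ T ρ')) γ (fun ρ' k => by
      obtain ⟨j, hj, rfl⟩ := hT.le k; rw [hg j hj]; exact h1' j hj) δ f
    (fun ρ' => d (invFunOn ρ T ρ')) e h0 h1 hF fun ρ' k => by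
      obtain ⟨j, hj, rfl⟩ := hT.le k; rw [hg j hj]; exact h2 j hj
  have e1 : ∑ j ∈ T, (jBG b {ρ j}).kap (W.pc c (ρ j)) (x (invFunOn ρ T (ρ j))) = ∑ j ∈ T, k j :=
    Finset.sum_congr rfl fun j hj => by rw [hg j hj, h3 j hj]
  have e2 : ∑ j ∈ T, (d (invFunOn ρ T (ρ j)) : ℝ) = ∑ j ∈ T, (d j : ℝ) :=
    Finset.sum_congr rfl fun j hj => by rw [hg j hj]
  rwa [hT, finsum_mem_image inj, finsum_mem_image inj, finsum_mem_coe_finset, finsum_mem_coe_finset,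
    e1, e2] at this

end Crest.Agent.X212.Hd82
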