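import Crest.Agent.X212.Hd82.Core
import Crest.Agent.X212.Rd78.Bas

/-!
# Row 212, HD + IXA + LV (helper82): assembly
-/

set_option autoImplicit false
set_option linter.unusedSectionVars false
noncomputable section
open scoped Manifold ContDiff Topology
open MeasureTheory Set Function Filter Classical

namespace Crest.Agent.X212.Hd82
open An M G75 Nd18 Rf65 Add46 Fk18 Cht98 Rdc90 Pte3
open An.Job (Sol SolOn)

variable {κ lam : Type} [Fintype κ] [Fintype lam] [DecidableEq lam] {Lm : LM κ lam}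

variable (Lm) in
/-- the leaves -/
structure LH : Prop where
  L : IxL κ (lam ⊕ lam) 8
  ch : ∀ Z, ChStmt Z κ (lam ⊕ lam) 8
  pinv : Inv14.PInvStmt κ (lam ⊕ lam) 8
  wl : ∀ (Y : Mf 3) [CompactSpace Y.M] [ConnectedSpace Y.M] (D : YD Y.I Y.M κ (lam ⊕ lam)), WlStmt D
  ly : LyStmt Lm
  stz : StzStmt κ (lam ⊕ lam)
  chx : AllJ κ lam ChxL
  spx : AllJ κ lam SpxL
  rad : RadStmt Lm
  hw : HwStmt κ lam
  mix : MixStmt Lm
  cm : CmStmt Lm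

theorem int_of_near {t M : ℝ} (h : ∀ η > 0, ∃ n : ℤ, |t - n| ≤ M * η) : ∃ n : ℤ, t = n := by
  have : t ∈ closure (range ((↑) : ℤ → ℝ)) := Metric.mem_closure_iff.2 fun ε hε => by
    obtain ⟨n, hn⟩ := h (ε / (|M| + 1)) (by positivity)
    refine ⟨n, mem_range_self n, hn.trans_lt ?_⟩
    rw [← mul_div_assoc, div_lt_iff₀ (by positivity)]
    nlinarith [le_abs_self M]
  exact (Int.isClosedEmbedding_coe_real.isClosed_range.closure_eq.le this).imp fun _ => Eq.symm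

section lim
variable {X : XD κ (lam ⊕ lam)} {β β' : X.C}

theorem zr_eqv (e : X.D.Eqv β β') (z : X.D.Zr β) : X.D.Zr β' := fun y => by
  obtain ⟨u, ζ, e⟩ := e
  refine (e.Φ (y, 0) trivial).trans ?_
  rw [show (cy β).Φ (y, 0) = 0 from z y, map_zero]
  exact Mod61.cs_zero _ _

theorem eqv_refl (h : Bs X.D β) : X.D.Eqv β β :=
  ⟨_, _, Eqv71.ceq_refl h.ok.B h.ok.G (ad0_cy h.adm) isOpen_univ⟩

theorem crit_adm (h : X.N.Crit X.D β) : X.D.Adm β := ⟨h.sol.toAdm, h.tmp⟩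

end lim

theorem cv_heq {Wi : Type} {S S' : Xs Wi κ lam} (e : S = S') (β) : HEq (cv e β) β := by
  subst e; rfl

theorem cv_eqv {Wi : Type} {S S' : Xs Wi κ lam} (e : S = S') {β β'} (h : S'.D.Eqv (cv e β) β') :
    S.D.Eqv β (cv e.symm β') := by subst e; exact h

theorem cv_zr {Wi : Type} {S S' : Xs Wi κ lam} (e : S = S') {β} (h : S'.D.Zr (cv e β)) :
    S.D.Zr β := by subst e; exact h

/-- good weights at walls without terms -/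
def Wl (X : XD κ (lam ⊕ lam)) (δ : ℝ) : Prop := X.OK → Ink3.Nil X.N → PY X.D 0 →
  (∀ β, X.N.Crit X.D β → Bs X.D β) ∧ ∀ β f, Bs X.D β → Fz κ (lam ⊕ lam) 8 X f β δ ∧
    X.bg.Ix (spO f univ) (cy β) 8 δ (dz X.D β)

theorem ev_wl (H : LH Lm) (X : XD κ (lam ⊕ lam)) : ∀ᶠ δ in 𝓝[>] (0 : ℝ), Wl X δ := by
  by_cases h : X.OK ∧ Ink3.Nil X.N ∧ PY X.D 0
  · obtain ⟨δ₀, p, k⟩ := H.pinv X h.1 h.2.1 ⟨0, h.2.2⟩
    have := h.1.con
    obtain ⟨w1, w2, -⟩ := H.wl X.Y X.D X.N 0 h.1.ok h.2.1 h.2.2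
    filter_upwards [Ioc_mem_nhdsGT p] with δ hδ _ _ _
    refine ⟨w1, fun β f b => ?_⟩
    have := k δ hδ β f b
    rwa [(w2 β b).1, zero_mul, Nat.cast_zero, sub_zero] at this
  · exact .of_forall fun _ a b c => (h ⟨a, b, c⟩).elim

variable {y₀ : G75.YD κ lam} {w : HW y₀} {e0 : ℤ} {N : ND (yY y₀).M (lam ⊕ lam)} {C : N.CD (yD y₀)}
  {S : Scene Lm} {z : Z0 (pk w e0 N C) S} {Z : Z1 z} {R : ℕ} {T : ℝ} {c₀ : S.M.Cl} {k₀ : ℝ}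
  {r n : ℕ} {τ : TrS S Z.F.Wi r n} {δ : ℝ} {f : Bool} {π : Reg S.A}

theorem pd_jb {k' : ℝ} {r' n' : ℕ} {τ' : TrS S Z.F.Wi r' n'} {b : Bp (Z.jb k₀ τ) Z.e}
    {b' : Bp (Z.jb k' τ') Z.e} (e : b'.s = b.s) {γ : ∀ a, (jX (Z.jb k₀ τ) a).C} {k d}
    (h : Pd b' γ δ f π k d) : Pd b γ δ f π k d := by
  obtain ⟨s, _, _⟩ := b
  obtain ⟨s', _, _⟩ := b'
  obtain rfl : s' = s := e
  exact h

/-- the limits -/
def lm (y : (Z.jb k₀ τ).Obc Z.e) (o : C.C) : ∀ a, (jX (Z.jb k₀ τ) a).C :=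
  update (fun a => y.β a true) z.t.a (cv (Z.F.xs_a Z.i).symm (C.β o))

theorem lm_a (y : (Z.jb k₀ τ).Obc Z.e) (o : C.C) :
    lm y o z.t.a = cv (Z.F.xs_a Z.i).symm (C.β o) := update_self _ _ _

theorem lm_ne (y : (Z.jb k₀ τ).Obc Z.e) (o : C.C) {a} (h : a ≠ z.t.a) : lm y o a = y.β a true :=
  update_of_ne h _ _

theorem lm_heq (y : (Z.jb k₀ τ).Obc Z.e) (o : C.C) : HEq (lm y o z.t.a) (C.β o) := by
  rw [lm_a]; exact cv_heq _ _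

theorem Wa.fz {o : C.C} (h : Wa w e0 δ f o) (y : (Z.jb k₀ τ).Obc Z.e) :
    ((Z.jb k₀ τ).xs z.t.a).D.Adm (lm y o z.t.a) ∧
      Fz κ (lam ⊕ lam) 8 (jX (Z.jb k₀ τ) z.t.a) f (lm y o z.t.a) δ := by
  have fa : ∀ (X : XD κ (lam ⊕ lam)) (g : X.C), X = xa y₀ N → HEq g (C.β o) →
      X.D.Adm g ∧ Fz κ (lam ⊕ lam) 8 X f g δ := by
    rintro _ _ rfl ⟨⟩; exact ⟨h.1.2, h.2.1.1⟩
  exact fa _ _ (jX_a Z k₀ τ) (lm_heq y o)

theorem ed_hp {l : S.A} {i : Ed Z.e} (h : i ∈ EdP Z.e {hp l false}) : i.1.1 = l ∧ i.2 = false := by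
  obtain ⟨_, rfl, h⟩ := h
  unfold hp at h
  split_ifs at h with k
  exact ⟨k, (Option.some.inj h).symm⟩

theorem ed_one (i : EdP Z.e {π}) : π i.1.1 = some i.1.2 := let ⟨_, ⟨_, rfl, h⟩⟩ := i; h

variable (Z δ) in
/-- good weights -/
structure Gw : Prop where
  d0 : 0 < δ
  d1 : δ ≤ dl0
  a : ∀ f o, f = true ∨ (yD y₀).Zr (C.β o) → Wa w e0 δ f o
  l : ∀ x, Wl (jX Z.J x) δ

theorem ev_gw (H : LH Lm) (h0 : z.OK R) (h1 : Z.OK T) : ∀ᶠ δ in 𝓝[>] (0 : ℝ), Gw Z δ := by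
  have hJ := (h1.F.J Z.i (fun e => h1.c (congrFun e _)) z.m z.k).1
  filter_upwards [Ioc_mem_nhdsGT dl0_pos, ev_wa H.L h0.p (jX_a Z _ _ ▸ jX_ok hJ z.t.a),
    eventually_all.2 fun x => ev_wl H (jX Z.J x)] with δ a b c
  exact ⟨a.1, a.2, b, c⟩

theorem Gw.ln (g : Gw Z δ) (mj : MJ (Z.jb k₀ τ) Z.e z.t.a) {x} (hx : x ∈ cylW Z.e) (h : x ≠ z.t.a) :
    let X := jX (Z.jb k₀ τ) x
    (∀ β, X.N.Crit X.D β → Bs X.D β) ∧ ∀ β f, Bs X.D β → Fz κ (lam ⊕ lam) 8 X f β δ ∧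
      X.bg.Ix (spO f univ) (cy β) 8 δ (dz X.D β) :=
  g.l x (jX_ok mj.ok x) (mj.nil x h).1 (mj.py x hx h)

variable {b : Bp (Z.jb k₀ τ) Z.e}

theorem CH.cyl (H : CH R T c₀ b δ) {l : S.ls} (hl : l ∈ LE Z.e π) : l.1 ∈ cylW Z.e :=
  ⟨(Finset.mem_filter.1 hl).2.1, H.h0.cn.ok.lsp _ l.2⟩

theorem CH.pl (H : CH R T c₀ b δ) {s} (hπ : π ∈ Z.Rg s) {l : S.ls} (hl : l ∈ LE Z.e π) :
    S.M.sys.Piece Z.e.1 (hp l.1 false) := ((H.sm.ins s π hπ _).2 (.inr ⟨l, hl, rfl⟩)).1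

theorem CH.ok0 (H : CH R T c₀ b δ) : Z.J0.OK :=
  (H.h1.F.R Z.i (fun e => H.h1.c (congrFun e _)) 0).1

/-- the ends of an outer piece -/
theorem CH.ed (H : CH R T c₀ b δ) {s} (hπ : π ∈ Z.Rg s) {i : Ed Z.e}
    (h : ou Z.e π i.1 = some i.2) :
    i.1.1 = z.t.a ∧ i.2 = s ∧ π z.t.a = some s ∨ i.1.1 ≠ z.t.a ∧ i.2 = true := by
  refine (H.cm.ed s π hπ _ i.1.2 _ h).imp_left fun k => ?_
  have k2 := k.1 ▸ k.2
  obtain rfl : i.2 = s := by simpa [k2] using H.cm.sd s π hπ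
  exact ⟨k.1, rfl, k2⟩

/-- **IXA** -/
theorem ixAt (H : LH Lm) (hw : w.OK) (hd : w.hd.OK) (h0 : z.OK R) (h1 : Z.OK T) (sm : Z.Sm)
    (g : Gw Z δ) : Z.IxAt δ := by
  intro k₀ r n τ f Q p q y o d x dl mj pg hQ hP hP' sa ch cl fl
  obtain ⟨c₀, cm⟩ := H.cm _ _ S z R Z T h0 h1 sm
  let b : Bp (Z.jb k₀ τ) Z.e := ⟨y.s, pg.ok.memBr pg.mem sa.ov, pg.ok.memO pg.mem sa.ov⟩
  have K : CH R T c₀ b δ := ⟨H.L, H.rad, H.mix, hw, hd, h0, h1, sm, cm, mj.ok, sa.cell, g.d0, g.d1⟩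
  have side : ∀ π ∈ Q, ∃ s, π ∈ Z.Rg s := fun π h =>
    (Finset.mem_union.1 (hQ h)).elim (⟨_, ·⟩) (⟨_, ·⟩)
  have wa : ∀ s, p.En z.t.a s → Wa w e0 δ f (o s) := fun s hs => g.a _ _ (by
    cases f
    · obtain ⟨b', E, x', ψ, ca⟩ := ch
      have hi : ((⟨_, mj.mem⟩, s) : Ed Z.e) ∈ EdP Z.e p.P := hs
      have z1 := ca.ga.zr _ hi fun ⟨_, k, _⟩ => by rw [hP'] at k; exact k
      have e := ca.mt _ hi
      rw [EC.lim, EC.lm, show E.μ _ = none from (E.μ _).casesOn rfl fun u => u.elim,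
        Option.elim_none, zero_smul, Rd78.bh_zero] at e
      have z2 := zr_eqv (X := jX (Z.jb k₀ τ) z.t.a) (eqv_symm (jX_ok mj.ok _).ok
        (crit_adm (X := jX (Z.jb k₀ τ) z.t.a) (sa.crit _ mj.mem s hs))
        (crit_adm (X := jX (Z.jb k₀ τ) z.t.a) (ca.ga.crit _ hi)) e) z1
      exact .inr (cv_zr (Z.F.xs_a Z.i).symm (zr_eqv (X := jX (Z.jb k₀ τ) z.t.a)
        (cv_eqv (Z.F.xs_a Z.i) (cl s hs)) z2))
    · exact .inl rfl)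
  have bs : ∀ x ∈ cylW Z.e, x ≠ z.t.a → p.En x true → Bs ((Z.jb k₀ τ).xs x).D (y.β x true) :=
    fun x hx h e => (g.ln mj hx h).1 _ (sa.crit x hx _ e)
  have hE : ∀ i ∈ EdP Z.e p.P, ((Z.jb k₀ τ).xs i.1).D.Adm (lm y (o i.2) i.1) ∧
      ((Z.jb k₀ τ).xs i.1).D.Eqv (y.β i.1 i.2) (lm y (o i.2) i.1) ∧
      Fz κ (lam ⊕ lam) 8 (jX (Z.jb k₀ τ) i.1) f (lm y (o i.2) i.1) δ := by
    rintro ⟨⟨a, ha⟩, s'⟩ hi
    obtain ⟨_, k1, k2⟩ := id hi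
    obtain ⟨π, hπ, rfl⟩ := hP.le k1
    obtain ⟨s, hs⟩ := side π hπ
    rcases K.ed hs k2 with ⟨rfl, -, -⟩ | ⟨k3, rfl⟩
    · exact ⟨((wa _ hi).fz y).1, by rw [lm_a]; exact cv_eqv _ (cl _ hi), ((wa _ hi).fz y).2⟩
    · have b := bs a ha k3 hi
      rw [lm_ne _ _ k3]
      exact ⟨b.adm, eqv_refl (X := jX (Z.jb k₀ τ) a) b, ((g.ln mj ha k3).2 _ f b).1⟩
  have h2 := H.chx _ _ _ _ _ _ _ _ _ _ _ _ _ z.t.a _ p δ q y d b f (fun i => lm y (o i.2) i.1) pg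
    sa.toSolOn ch rfl hP' hE
  have hQ' : p.P = ↑(Q.image (ou Z.e)) := by rw [hP, Finset.coe_image]
  have pc := pg.pok.pc
  rw [hQ'] at h2 hE pc
  obtain ⟨x₀, s1, s2, s3⟩ := h2
  obtain ⟨e, rfl, he⟩ := H.spx _ _ _ _ _ _ _ _ _ _ _ _ _ b _ f _ x₀ δ d mj.ok pc g.d0 g.d1
    (fun i hi => (hE i hi).2.2) s1 s2
  rw [Finset.sum_image (sm.inj.mono hQ), Int.cast_sum]
  refine Finset.sum_congr rfl fun π hπ => ?_
  obtain ⟨s, hs⟩ := side π hπ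
  have m := Finset.mem_image_of_mem (ou Z.e) hπ
  have en : ∀ {x t}, ou Z.e π x = some t → p.En x t := fun k => ⟨_, hQ' ▸ m, k⟩
  have bl : ∀ l ∈ LE Z.e π, Bs ((Z.jb k₀ τ).xs l).D (y.β l true) := fun l hl =>
    bs _ (K.cyl hl) (cm.ne s π hs l hl).2.1 (en (cm.ne s π hs l hl).2.2)
  refine (K.core hs (γ := lm y (o s)) (o := o) (kl := fun l => Z1.kp (x l) (hp l.1 false)) (dl := dl)
    (el := fun l => dz ((Z.jb k₀ τ).xs l).D (y.β l true)) (fun t ht => ?_) (fun l hl => ?_)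
    ⟨x₀, ?_, (he _ m).2, s3 _ m⟩ fun l hl => ?_).2
  · obtain rfl : t = s := by simpa [ht] using cm.sd s π hs
    refine ⟨lm_heq _ _, wa _ (en ?_)⟩
    rw [ou, if_neg fun k => (h0.cn.ok.fz _ h0.t.fz.1).2.1 k.2.1, ht]
  · rw [lm_ne _ _ (cm.ne s π hs l hl).2.1]
    exact (g.ln mj (K.cyl hl) (cm.ne s π hs l hl).2.1).2 _ f (bl l hl)
  · convert (he _ m).1 using 2 with i
    rcases K.ed hs (ed_one i) with ⟨-, k, -⟩ | ⟨k, -⟩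
    · rw [k]
    · rw [lm_ne _ _ k, lm_ne _ _ k]
  · obtain ⟨F, I⟩ := fl π hπ l hl
    have ne := (cm.ne s π hs l hl).2.1
    refine pd_jb (b' := F.go.bp) F.s (pd_go H.L.std (H.ch _) K.ok0 (K.pl hs hl) g.d0 g.d1 F.go
      (fun i hi => ?_) I)
    have B := F.go.bs i hi
    obtain ⟨⟨a, ha⟩, t⟩ := i
    obtain ⟨rfl, rfl⟩ := ed_hp hi
    rw [lm_ne _ _ ne]
    exact ⟨(mj.nil _ ne).1, fun f => ((g.ln mj ha ne).2 _ f B).1, (bl l hl).adm, F.eqv⟩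

/-- **LV** -/
theorem lvAt (H : LH Lm) (hw : w.OK) (hd : w.hd.OK) (h0 : z.OK R) (h1 : Z.OK T) (sm : Z.Sm) (Adm) :
    Z.LvAt Adm := by
  intro q y o x δ' s π hs _ sol cl d0 na fl
  obtain ⟨δ, g⟩ := (ev_gw H h0 h1).exists
  obtain ⟨c₀, cm⟩ := H.cm _ _ S z R Z T h0 h1 sm
  obtain ⟨hJ, hL⟩ := h1.F.J Z.i (fun e => h1.c (congrFun e _)) z.m z.k
  have mj := Z1.mj h0 h1 H.ly hJ hL
  have hσ : Z.ce ∈ Z.J.𝒦 := ⟨_, _, _, rfl, by simp, h1.c, h1.sub⟩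
  let b : Bp Z.J Z.e := ⟨y.s, hJ.memBr hσ sol.ov, hJ.memO hσ sol.ov⟩
  have K : CH R T c₀ b δ := ⟨H.L, H.rad, H.mix, hw, hd, h0, h1, sm, cm, hJ, sol.cell, g.d0, g.d1⟩
  have wa := fun o => g.a true o (.inl rfl)
  have bs : ∀ x ∈ cylW Z.e, x ≠ z.t.a → Bs (Z.J.xs x).D (y.β x true) :=
    fun x hx h => (g.ln mj hx h).1 _ (sol.crit x hx _)
  suffices h : ∃ n : ℤ, Z1.kp y (ou Z.e π) + ∑ l ∈ LE Z.e π, Z1.kp (x l) (hp l.1 false) -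
      ((if π z.t.a = none then 0 else (pk w e0 N C).Γ.k (o false)) + sR z.t Z.i π / 4) = n from
    h.imp fun _ h => by linear_combination h
  refine int_of_near (M := 1 + (LE Z.e π).card) fun η hη => ?_
  obtain ⟨k, d, p1, p2⟩ := pd_lim (f := true) (γ := lm y (o false)) (β := fun i => y.β i.1.1 i.1.2)
    H.L H.stz hJ (K.pc hs) g.d0 g.d1 b sol.sol.toAdm (fun i => by
      have e := ed_one i
      obtain ⟨⟨⟨a, ha⟩, t⟩, hi⟩ := i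
      refine ⟨crit_adm (X := jX Z.J a) (sol.crit a ha t), ⟨y.ζ a t, by
        cases t <;> exact sol.lim a _ (act b (⟨a, ha⟩, _))⟩, ?_⟩
      rcases K.ed hs e with ⟨rfl, rfl, k⟩ | ⟨k, rfl⟩
      · obtain rfl : t = false := by cases t; exacts [rfl, (na k).elim]
        exact ⟨((wa _).fz y).1, by rw [lm_a]; exact cv_eqv _ cl, ((wa _).fz y).2⟩
      · have B := bs a ha k
        rw [lm_ne _ _ k]
        exact ⟨B.adm, eqv_refl (X := jX Z.J a) B, ((g.ln mj ha k).2 _ _ B).1⟩)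
    sol.int.integrableOn hη
  have : ∀ l ∈ LE Z.e π, ∃ k d, Pd b (lm y (o false)) δ true (hp l.1 false) k d ∧
      |k - Z1.kp (x l) (hp l.1 false)| < η := fun l hl => by
    have F := fl l hl
    have ne := (cm.ne s π hs l hl).2.1
    obtain ⟨k, d, p1, p2⟩ := pd_lim (J := Z.J0) (f := true) (γ := fun a => lm y (o false) a)
      (β := fun i => (x l).β i.1.1 i.1.2) (x := (x l).x.con) H.L H.stz K.ok0 (K.pl hs hl) g.d0 g.d1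
      F.go.bp ⟨F.go.adm.ok, F.go.adm.conn, F.go.adm.sm, F.go.adm.pos, .inl rfl⟩ (fun i => by
        have B := F.go.bs _ i.2
        refine ⟨B.adm, ⟨1, lim_go d0 F.go i⟩, ?_⟩
        obtain ⟨⟨⟨a, ha⟩, t⟩, hi⟩ := i
        obtain ⟨rfl, rfl⟩ := ed_hp hi
        have B' := bs _ ha ne
        rw [lm_ne _ _ ne]
        exact ⟨B'.adm, eqv_symm B.ok B'.adm B.adm F.eqv, ((g.ln mj ha ne).2 _ _ B').1⟩) F.go.int hη
    exact ⟨k, d, pd_jb (b' := F.go.bp) F.s p1, p2⟩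
  choose! kl dl p3 p4 using this
  obtain ⟨n, hn⟩ := (K.core hs (o := fun _ => o false) (el := fun l => dz (Z.J.xs l).D (y.β l true))
    (fun _ _ => ⟨lm_heq _ _, wa _⟩) (fun l hl => by
      rw [lm_ne _ _ (cm.ne s π hs l hl).2.1]
      exact (g.ln mj (K.cyl hl) (cm.ne s π hs l hl).2.1).2 _ _
        (bs _ (K.cyl hl) (cm.ne s π hs l hl).2.1)) p1 p3).1 na
  refine ⟨n, ?_⟩
  have e : ∀ t u : ℝ, t + ∑ l ∈ LE Z.e π, Z1.kp (x l) (hp l.1 false) - u - n =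
      -(k - t) - ∑ l ∈ LE Z.e π, (kl l - Z1.kp (x l) (hp l.1 false)) +
        (k + ∑ l ∈ LE Z.e π, kl l - (u + n)) := fun t u => by
    rw [Finset.sum_sub_distrib]; ring
  rw [e, hn, sub_self, add_zero, add_mul, one_mul]
  refine (abs_sub _ _).trans (add_le_add ((abs_neg _).trans_le p2.le)
    ((Finset.abs_sum_le_sum_abs _ _).trans ?_))
  simpa using Finset.sum_le_card_nsmul _ _ η fun l hl => (p4 l hl).le

/-- **HD + IXA + LV** -/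
theorem hd (H : LH Lm) : HdStmt Lm := fun y₀ hy => by
  obtain ⟨w, hw, hd⟩ := H.hw y₀ hy
  refine ⟨w.hd, hd, rfl, ?_⟩
  rintro ⟨H', N, C⟩ ⟨e0, e⟩
  obtain rfl : H' = _ := e
  exact fun S z R Z T h0 h1 sm => ⟨(ev_gw H h0 h1).mono fun δ => ixAt H hw hd h0 h1 sm,
    .of (lvAt H hw hd h0 h1 sm)⟩

end Crest.Agent.X212.Hd82
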