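import Crest.Agent.X212.Hd82.Pd
import Crest.Agent.X212.Aps75.Main

/-!
# Row 212, HD + IXA + LV (helper82): the index and the level of a region
-/

set_option autoImplicit false
set_option linter.unusedSectionVars false
noncomputable section
open scoped Manifold ContDiff Topology
open MeasureTheory Set Function Filter Classical

namespace Crest.Agent.X212.Hd82
open An M G75 Nd18 Rf65 Add46 Fk18 Cht98

theorem injOn_elim {I R : Type} {T : Finset I} {ρ : I → R} {x : R} (h : InjOn ρ T)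
    (hx : x ∉ ρ '' T) : InjOn (fun j : Option I => j.elim x ρ) T.insertNone := by
  rintro (_ | i) hi (_ | j) hj e
  · rfl
  · exact (hx ⟨j, by simpa using hj, Eq.symm e⟩).elim
  · exact (hx ⟨i, by simpa using hi, e⟩).elim
  · exact congrArg _ (h (by simpa using hi) (by simpa using hj) e)

theorem image_elim {I R : Type} (T : Finset I) (ρ : I → R) (x : R) :
    (fun j : Option I => j.elim x ρ) '' T.insertNone = insert x (ρ '' T) := by
  ext r; simp [Option.exists, eq_comm]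

variable {κ lam : Type} [Fintype κ] [Fintype lam] [DecidableEq lam] {Lm : LM κ lam}
  {y₀ : G75.YD κ lam} {w : HW y₀} {e0 : ℤ} {N : ND (yY y₀).M (lam ⊕ lam)} {C : N.CD (yD y₀)}

theorem Mx.OK.sub {ZL ZR : Mf 4} {bL : BG κ (lam ⊕ lam) ZL} {bR : BG κ (lam ⊕ lam) ZR}
    {S : Scene Lm} {i : S.L} {m : Mx bL bR S i} {a : S.A} {U : Set S.X.M} (o : m.OK a U) :
    Subsingleton bL.A := ⟨fun j j' => m.fL.injective (Subtype.ext (Prod.ext
      (Subtype.ext ((o.ed _).trans (o.ed _).symm)) (by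
        have k : ∀ i : EdP m.c {m.ρ false}, i.1.2 = false := fun ⟨i, _, rfl, h⟩ => by
          rw [o.ed ⟨i, _, rfl, h⟩, o.re] at h; exact (Option.some.inj h).symm
        rw [k, k])))⟩

variable (w e0 N C) in
/-- the data -/
@[reducible] def pk : Pk y₀ := ⟨{ w.hd with e0 := e0 }, N, C⟩

variable (y₀ N) in
/-- the cross-section -/
@[reducible] def xa : XD κ (lam ⊕ lam) := ⟨yY y₀, yD y₀, N⟩

variable (w e0) in
/-- good weights at a critical point -/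
def Wa (δ : ℝ) (f : Bool) (o : C.C) : Prop := ∃ h, (Fz κ (lam ⊕ lam) 8 (xa y₀ N) f (C.β o) δ ∧
  (xa y₀ N).bg.Ix (spO f univ) (cy (C.β o)) 8 δ (nz (yD y₀) f (C.β o))) ∧
  ((w.b1 true).bg N false).Ix (spO f (w.b1 true).O) ((pk w e0 N C).H.b (C.β o) h) 8 δ
    (Classical.epsilon ((pk w e0 N C).H.Ix N f (C.β o)))

theorem ev_wa (L : IxL κ (lam ⊕ lam) 8) (hP : (pk w e0 N C).OK) (hX : (xa y₀ N).OK) :
    ∀ᶠ δ in 𝓝[>] (0 : ℝ), ∀ f o, f = true ∨ (yD y₀).Zr (C.β o) → Wa w e0 δ f o :=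
  eventually_all.2 fun f => eventually_all.2 fun o => by
    by_cases h : f = true ∨ (yD y₀).Zr (C.β o)
    · exact (Aps75.wt' (H := (pk w e0 N C).H) L hP.H hX ⟨C.crit o, C.nd o, C.irr o⟩ h).mono
        fun δ k _ => ⟨_, k⟩
    · exact .of_forall fun _ k => (h k).elim

variable {S : Scene Lm} {z : Z0 (pk w e0 N C) S} {Z : Z1 z} {R : ℕ} {T : ℝ} {c₀ : S.M.Cl} {k₀ : ℝ}
  {r n : ℕ} {τ : TrS S Z.F.Wi r n} {b : Bp (Z.jb k₀ τ) Z.e} {δ : ℝ} {f : Bool} {π : Reg S.A}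

variable (Z k₀ τ) in
theorem jX_a : jX (Z.jb k₀ τ) z.t.a = xa y₀ N :=
  congrArg (fun x : Xs Z.F.Wi κ lam => XD.mk x.Y x.D x.N) (Z.F.xs_a Z.i)

variable (b R T c₀ δ) in
/-- the standing hypotheses -/
structure CH : Prop where
  L : IxL κ (lam ⊕ lam) 8
  rad : RadStmt Lm
  mix : MixStmt Lm
  hw : w.OK
  hd : w.hd.OK
  h0 : z.OK R
  h1 : Z.OK T
  sm : Z.Sm
  cm : Cm Z c₀
  ok : (Z.jb k₀ τ).OK
  cl : b.s ∈ Job.cl Z.ce
  d0 : 0 < δ
  d1 : δ ≤ dl0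

namespace CH
variable (H : CH R T c₀ b δ)
include H

theorem pc {s} (hπ : π ∈ Z.Rg s) : S.M.sys.Piece Z.e.1 (ou Z.e π) := (H.sm.pc s π hπ).1

theorem rt {π₀} (h : S.M.sys.Piece c₀.1 π₀) : Rt (Z.jb k₀ τ) Z.e c₀ π₀ :=
  ⟨z.D.nrm, z.D.lnrm _, H.ok, H.cm.hm, H.cm.c0, h⟩

theorem mem : z.t.a ∈ cylW Z.e := ⟨H.h1.a, (H.h0.cn.ok.fz _ H.h0.t.fz.1).1⟩

/-- **the left region** -/
theorem left (hπ : π ∈ Z.Rg false) (ha : π z.t.a = some false) :
    (∀ j : EdP Z.e {π}, j.1.1.1 = z.t.a) ∧ ∀ γ o k d, HEq (γ z.t.a) (C.β o) → Wa w e0 δ f o →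
      Pd b γ δ f π k d → (∃ n : ℤ, k = (pk w e0 N C).Γ.k o + sR z.t Z.i π / 4 + n) ∧
      d = fm f k (bR z.t Z.i π) (sR z.t Z.i π) +
        bif f then (pk w e0 N C).Γ.η o - e0 else (pk w e0 N C).Γ.ηA o := by
  have pc : S.M.sys.Piece Z.e.1 π := (H.cm.L π hπ).2 ▸ H.pc hπ
  obtain ⟨m, hm⟩ := H.mix y₀ w S z.t R z.c z.D Z.i N _ _ _ r n (Z.jb k₀ τ) Z.e b π _ Z.F.g H.h0.p.y
    H.hw H.hd H.h0.cn.ok H.h0.t H.ok (Z.F.xs_a Z.i)
    (congr_arg_heq (fun x : Ink3.XG1 _ _ _ => x.g) (Ink3.XG.upd_self _ _ _)) H.h1.F.gj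
    (H.cm.act _ H.cl) H.cm.pin pc ha
  have e : ∀ j : EdP Z.e {π}, j.1.1.1 = z.t.a := fun j =>
    congrArg (fun j : EdP Z.e {π} => j.1.1.1) (hm.sub.elim j ⟨(⟨_, H.mem⟩, false), π, rfl, ha⟩)
  refine ⟨e, fun γ o k d hγ ⟨h, w1, w2⟩ ⟨x, x1, x2, x3⟩ => ?_⟩
  obtain ⟨β, sg, l2, nb⟩ := H.cm.nb _ π hπ
  have nu := nu_eq nb
  rw [NbR, if_pos ha] at nb
  obtain ⟨⟨n, k1⟩, k2⟩ := hm.two H.L H.rad nb (jBG_ok1 H.ok b fun _ h => h ▸ pc)
    (fun f => (Aps75.clo_ok (H.hd.clo N H.h0.p.N) f).2) (X := xa y₀ N) ⟨(), rfl⟩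
    (fun j => (congr_arg_heq γ (e j)).trans hγ) (fun _ => HEq.rfl) x1 (Aps75.std_b h N) H.d0 H.d1 w1.1 w1.2
    x2 w2
  have e1 : (pk w e0 N C).Γ.k o = -((w.b1 true).bg N false).kap (w.b1 true).O
      ((pk w e0 N C).H.b (C.β o) h) := dif_pos h
  have e2 : (jBG b {π}).kap (jBG b {π}).O x = k :=
    (congrArg (fun O => (jBG b {π}).kap O x) (un_one z.D.W.toCaps Z.e π)).trans x3
  rw [e2, ← neg_eq_iff_eq_neg.2 e1] at k1 k2
  simp only [sR, bR, nu]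
  refine ⟨⟨n, by linear_combination k1⟩, ?_⟩
  cases f
  · simp only [fm, cond, Gr.ηA, nz, Bool.false_eq_true, false_and, if_false] at k2 ⊢
    rw [show (pk w e0 N C).Γ.d o = -Classical.epsilon ((pk w e0 N C).H.Ix N false (C.β o)) from rfl]
    push_cast at k2 ⊢
    linear_combination k2
  · simp only [fm, cond, Gr.η] at k2 ⊢
    rw [show (pk w e0 N C).Γ.g o = e0 - Classical.epsilon ((pk w e0 N C).H.Ix N true (C.β o)) +
      nz (yD y₀) true (C.β o) from rfl]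
    push_cast
    linear_combination k2

theorem inj0 {s} (hπ : π ∈ Z.Rg s) : InjOn (fun j : Option S.ls => j.elim (ou Z.e π)
    fun l => hp l.1 false) (LE Z.e π).insertNone :=
  injOn_elim (fun l _ l' _ e => Subtype.ext (by simpa [hp] using (congrFun e l.1).symm))
    fun ⟨l, hl, e⟩ => (H.cm.ne s π hπ l hl).1 e.symm

theorem ins0 {s} (hπ : π ∈ Z.Rg s) : {ρ | S.In Z.e π ρ} = (fun j : Option S.ls =>
    j.elim (ou Z.e π) fun l => hp l.1 false) '' (LE Z.e π).insertNone := by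
  rw [image_elim]; ext ρ; simp [H.sm.ins s π hπ, eq_comm]

/-- **the index and the level of a region** -/
theorem core {s} (hπ : π ∈ Z.Rg s) {γ : ∀ a, (jX (Z.jb k₀ τ) a).C} {o : Bool → C.C} {k : ℝ} {d : ℤ}
    {kl : S.ls → ℝ} {dl : S.ls → ℤ} {el : S.A → ℤ}
    (ha : ∀ s, π z.t.a = some s → HEq (γ z.t.a) (C.β (o s)) ∧ Wa w e0 δ f (o s))
    (hl : ∀ l ∈ LE Z.e π, Fz κ (lam ⊕ lam) 8 (jX (Z.jb k₀ τ) l) f (γ l) δ ∧
      (jX (Z.jb k₀ τ) l).bg.Ix (spO f univ) (cy (γ l)) 8 δ (el l))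
    (pd : Pd b γ δ f (ou Z.e π) k d) (pl : ∀ l ∈ LE Z.e π, Pd b γ δ f (hp l.1 false) (kl l) (dl l)) :
    (π z.t.a ≠ some true → ∃ n : ℤ, k + ∑ l ∈ LE Z.e π, kl l =
      (if π z.t.a = none then 0 else (pk w e0 N C).Γ.k (o false)) + sR z.t Z.i π / 4 + n) ∧
    (d : ℝ) = (bif f then 6 else 8) * k - 3 * bR z.t Z.i π + (bif f then sR z.t Z.i π / 2 else 0) +
      et z.t π (pk w e0 N C).Γ e0 o f +
      (if π z.t.a = some true then (nz (yD y₀) f (C.β (o true)) : ℝ) else 0) +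
      ∑ l ∈ LE Z.e π, ((bif f then 6 else 8) * kl l - dl l + el l) := by
  have sum : ∑ l ∈ LE Z.e π, ((bif f then 6 else 8) * kl l - dl l + el l) =
      (bif f then 6 else 8) * ∑ l ∈ LE Z.e π, kl l - ∑ l ∈ LE Z.e π, (dl l : ℝ) +
        ∑ l ∈ LE Z.e π, (el l : ℝ) := by
    rw [Finset.sum_add_distrib, Finset.sum_sub_distrib, Finset.mul_sum]
  have p0 : ∀ j ∈ (LE Z.e π).insertNone, Pd b γ δ f (j.elim (ou Z.e π) fun l => hp l.1 false)
      (j.elim k kl) (j.elim d dl) := by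
    rintro (_ | l) hj
    exacts [pd, pl l (by simpa using hj)]
  rw [sum]
  rcases e : π z.t.a with _ | _ | _
  · obtain ⟨β, sg, l2, nb⟩ := H.cm.nb _ π hπ
    have nu := nu_eq nb
    obtain ⟨pc, hc⟩ := H.cm.cl s π hπ e
    rw [NbR, if_neg (by simp [e]), TD.op, ← e, update_eq_self] at nb
    obtain ⟨⟨n, k1⟩, k2⟩ := radI (H.rad S _ _ _ _ _ _ _ _ _ _ _ b π β sg l2 (H.rt pc) nb) _ _
      (H.inj0 hπ) (H.ins0 hπ) _ _ p0 el H.d0 H.d1 fun a k => by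
        obtain ⟨l, k', rfl⟩ := hc.le k; exact hl l k'
    rw [hc, finsum_mem_image Subtype.val_injective.injOn, finsum_mem_coe_finset] at k2
    simp only [Finset.sum_insertNone, Option.elim, fm] at k1 k2
    simp only [sR, bR, nu, et, e, Option.elim, if_true, reduceCtorEq, if_false]
    exact ⟨fun _ => ⟨n, by linear_combination k1⟩, by linear_combination k2⟩
  · obtain rfl : s = false := by simpa [e] using H.cm.sd s π hπ
    obtain ⟨l0, l1⟩ := H.cm.L π hπ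
    rw [l1] at pd
    obtain ⟨⟨n, k1⟩, k2⟩ := (H.left hπ e).2 γ _ k d (ha _ e).1 (ha _ e).2 pd
    simp only [l0, Finset.sum_empty, et, e, Option.elim, reduceCtorEq, if_false, cond,
      Option.some.injEq, Bool.false_eq_true, fm] at k2 ⊢
    exact ⟨fun _ => ⟨n, by linear_combination k1⟩, by linear_combination k2⟩
  · obtain rfl : s = true := by simpa [e] using H.cm.sd s π hπ
    refine ⟨fun k => (k rfl).elim, ?_⟩
    obtain ⟨ρ, hρ, eρ, -⟩ := H.sm.one false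
    obtain ⟨π₀, β, sg, l2, pc, nb, e1, e2, ins, nin, hc⟩ := H.cm.R ρ hρ eρ π hπ e
    obtain ⟨a1, h, a2, a3⟩ := ha _ e
    have fa : ∀ (X : XD κ (lam ⊕ lam)) (g : X.C), X = xa y₀ N → HEq g (C.β (o true)) →
        X.D.Adm g ∧ Fz κ (lam ⊕ lam) 8 X f g δ ∧
          X.bg.Ix (spO f univ) (cy g) 8 δ (nz (yD y₀) f (C.β (o true))) := by
      rintro _ _ rfl ⟨⟩; exact ⟨h.2, a2⟩
    have fa' := fa _ _ (jX_a Z k₀ τ) a1
    obtain ⟨ed, lf⟩ := H.left (f := f) hρ eρ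
    obtain ⟨kρ, dρ, pρ⟩ := pd_ex (f := f) (γ := γ) H.L H.ok z.D.nrm (z.D.lnrm _) H.cm.hm
      ((H.cm.L ρ hρ).2 ▸ H.pc hρ) H.d0 H.d1 b fun j => by rw [ed j]; exact ⟨fa'.1, fa'.2.1⟩
    have k1 := (lf γ _ kρ dρ a1 ⟨h, a2, a3⟩ pρ).2
    have na : z.t.a ∉ Subtype.val '' (↑(LE Z.e π) : Set S.ls) := fun ⟨l, k, e⟩ =>
      (H.cm.ne _ π hπ l k).2.1 e
    have k2 := (radI (H.rad S _ _ _ _ _ _ _ _ _ _ _ b π₀ β sg l2 (H.rt pc) nb) _ _
      (injOn_elim (H.inj0 hπ) (fun k => nin ((H.ins0 hπ).ge k))) (by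
        rw [image_elim, ← H.ins0 hπ]; exact ext ins)
      (fun j => j.elim kρ fun j => j.elim k kl) (fun j => j.elim dρ fun j => j.elim d dl)
      (by rintro (_ | j) hj; exacts [pρ, p0 j (by simpa using hj)])
      (update el z.t.a (nz (yD y₀) f (C.β (o true)))) H.d0 H.d1 fun a k => by
        obtain rfl | ⟨l, k', rfl⟩ := hc.le k
        · rw [update_self]; exact fa'.2
        · rw [update_of_ne (H.cm.ne _ π hπ l k').2.1]; exact hl l k').2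
    rw [hc, finsum_mem_insert _ na (toFinite _), finsum_mem_image Subtype.val_injective.injOn,
      finsum_mem_coe_finset, update_self, Finset.sum_congr rfl fun l k =>
        congrArg Int.cast (update_of_ne (H.cm.ne _ π hπ l k).2.1 _ _)] at k2
    simp only [Finset.sum_insertNone, Option.elim, fm, e1, e2] at k1 k2
    simp only [et, e, Option.elim, if_true, cond, Wt]
    cases f <;> simp only [cond] at k1 k2 ⊢ <;> push_cast <;> linear_combination k2 - k1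

end CH

end Crest.Agent.X212.Hd82
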