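import Crest.Agent.X212.Hd28.Exs
import Crest.Agent.X212.Cyl58.Cps
import Crest.Agent.X212.M.Nrm

/-!
# Row 212, HD + IXA + LV (helper82): transport of standard configurations
-/

set_option autoImplicit false
set_option linter.unusedSectionVars false
noncomputable section
open scoped Manifold ContDiff Topology
open MeasureTheory Set Function Filter Classical

namespace Crest.Agent.X212.Hd82
open An M Nd18 Add46

variable {κ lam : Type} [Fintype κ] [Fintype lam] {k : ℕ} {Z Z' : Mf 4}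
  {b : BG κ lam Z} {b' : BG κ lam Z'}

theorem sd_mt (L : StdStmt κ lam) (p : GP b b') (ok : b.OK ∅) (ok' : b'.OK ∅)
    {e : Nd18.En b.B b.G} {e' : Nd18.En b'.B b'.G}
    (h : ∃ X K K' o, e = ⟨X, K, o⟩ ∧ e' = ⟨X, K', o⟩ ∧ p.Mk K K' o) (hX : e.X.OK)
    (j : ∃ s, e.ht s ⊆ e.K.J) (j' : ∃ s, e'.ht s ⊆ e'.K.J) {β : e.X.C} {β' : e'.X.C}
    (hβ : HEq β β') {c : C0 Z κ lam} {c' : C0 Z' κ lam} {u ζ} (hc : c.Adm b.B b.G)
    (hc' : c'.Adm b'.B b'.G) (ce : p.Ce c c' u ζ) (s : e.Sd c β) : e'.Sd c' β' := by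
  obtain ⟨X, K, K', o, rfl, rfl, h⟩ := h
  obtain rfl := eq_of_heq hβ
  obtain ⟨s₁, j⟩ := j
  obtain ⟨s₂, j'⟩ := j'
  exact (L.1 _ _ b b' p X K K' o c c' u ζ β hX ok ok' h ⟨max s₁ s₂,
    (Hd28.ht_mono (le_max_left _ _)).trans j, (Hd28.ht_mono (le_max_right _ _)).trans j'⟩
    hc hc' ce).1 s

theorem sp_gl (p : GP b b') (e : Bool) : p.Sp (spO e b.O) (spO e b'.O) := fun x hx => by
  cases e
  · exact Iff.rfl
  · exact iff_of_true (p.sub' (p.φ.map_source hx)) (p.sub hx)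

/-- **IXT** -/
theorem ixt (L : IxL κ lam k) (p : GP b b') {f : b.A ≃ b'.A} (g : p.Gl f)
    (ok : ∀ e, b.OK (spO e b.O)) (ok' : ∀ e, b'.OK (spO e b'.O))
    (h₀ : ∃ c₀ : C0 Z' κ lam, c₀.Adm b'.B b'.G) {c : C0 Z κ lam} {β : ∀ a, (b.E a).X.C}
    {β' : ∀ a, (b'.E a).X.C} (hβ : ∀ a, HEq (β a) (β' (f a))) (st : b.Std c β) :
    ∃ c', b'.Std c' β' ∧ b.kap b.O c = b'.kap b'.O c' ∧ ∀ e δ d d', b.Ix (spO e b.O) c k δ d →
      b'.Ix (spO e b'.O) c' k δ d' → d = d' := by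
  obtain ⟨c₀, h₀⟩ := h₀
  obtain ⟨c', u, h1, h2, -⟩ := L.trp _ _ b b' p f c c₀ (ok false) (ok' false) g st.1 h₀
  obtain ⟨s, hs⟩ := (ok false).en
  obtain ⟨s', hs'⟩ := (ok' false).en
  refine ⟨c', ⟨h1, fun a => ?_⟩, ((L.top.1 _ _ b b' p f _ _ (ok false) (ok' false) g
    (sp_gl p false)).2.2 c c' u 1 st.1 h1 h2).1, fun e δ d d' =>
      L.geq _ _ b b' p f _ _ c c' u 1 δ d d' (ok e) (ok' e) g (sp_gl p e) st.1 h1 h2⟩
  obtain ⟨a, rfl⟩ := f.surjective a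
  exact sd_mt L.std p (ok false) (ok' false) (g.mt a) ((ok false).X a) ⟨s, (hs a).1⟩
    ⟨s', (hs' _).1⟩ (hβ a) st.1 h1 h2 (st.2 a)

theorem GP.Mt.X_eq {p : GP b b'} {a a'} (h : p.Mt a a') : (b.E a).X = (b'.E a').X := by
  obtain ⟨X, K, K', o, h1, h2, -⟩ := h
  rw [h1, h2]

/-- the index exists -/
theorem rz' (L : IxL κ lam k) {e : Bool} (ok : b.OK (spO e b.O)) {c β} (st : b.Std c β) {δ : ℝ}
    (h0 : 0 < δ) (h1 : δ ≤ Cht98.dl0) (hF : ∀ a, Fz κ lam k (b.E a).X e (β a) δ) :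
    ∃ d, b.Ix (spO e b.O) c k δ d :=
  let ⟨s, hs⟩ := ok.en
  L.rz _ b _ c β δ ok st h0 h1 fun a => ⟨e, s, fun x hx => by
    have := (hs a).2.1 hx
    cases e <;> simp [spO, this], hF a⟩

section job
variable [DecidableEq lam] {Wi : Type} {X : Mf 4} {A : Type} [Fintype A] {M : Mark X A κ}
  {W : World M} {N : ML M lam} {Λ : Lns W N} {A' h : Type} [Fintype A'] [DecidableEq A']
  [Fintype h] {r n : ℕ} {J : Job Wi Λ A' h r n} {c : M.Cl}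

/-- **MDJ** -/
theorem mdJ (hW : W.Nrm) (hΛ : Λ.Nrm) {m : M.Cl} (hm : cylW c ⊆ m.1) :
    ∃ x : Md (W.Z c).M (Option κ) (lam ⊕ lam), x.OK (W.Z c).I (Λ.B m c) := by
  let d : M.Cl := ⟨{a ∈ c.1 | M.pin a}, c.2.mono (sep_subset _ _)⟩
  have u : M.Up d c := ⟨sep_subset _ _, fun a k p => ⟨k, p⟩⟩
  have := Cyl58.caps_compact W.toCaps (c := d) fun a k => k.2
  obtain ⟨x, hx⟩ := Hd28.mdStmt _ _ (W.Z d) (Λ.B m d) (Λ.B_ok _ _)
  rw [hΛ.B hW u fun a k => hm ⟨k.1, fun p => k.2 ⟨k.1, p⟩⟩]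
  exact ⟨_, Pj41.cmM_ok (W.up_oe u).contMDiff hx⟩

theorem admJ (hW : W.Nrm) (hΛ : Λ.Nrm) (hm : cylW c ⊆ J.m.1) (b : Rf65.Bp J c) :
    ∃ x : C0 (W.Z c) κ (lam ⊕ lam), x.Adm (J.B c) (J.G c b.s) :=
  let ⟨_, h⟩ := mdJ hW hΛ hm
  Hd28.adm_of_md (Λ.B_ok _ _) (Λ.G_ok _ b.O) h

theorem jBG_ok1 (hJ : J.OK) (b : Rf65.Bp J c) {P : Set (Reg A)} (hP : ∀ π ∈ P, M.sys.Piece c.1 π)
    (e : Bool) : (jBG b P).OK (spO e (W.un c P)) := by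
  cases e
  · have := jBG_ok hJ hP (empty_subset P) b
    rwa [show W.un c ∅ = ∅ from biUnion_empty _] at this
  · exact jBG_ok hJ hP subset_rfl b

end job

end Crest.Agent.X212.Hd82
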