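import Crest.Agent.X212.Hd82.Ixt

/-!
# Row 212, HD + IXA + LV (helper82): the left part of the wall with terms
-/

set_option autoImplicit false
set_option linter.unusedSectionVars false
noncomputable section
open scoped Manifold ContDiff Topology
open MeasureTheory Set Function Filter Classical

namespace Crest.Agent.X212.Hd82
open An M G75 Nd18 Rf65 Add46

variable {κ lam : Type} [Fintype κ] [Fintype lam] [DecidableEq lam] {Lm : LM κ lam}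

/-- the index of a closed region -/
def fm (f : Bool) (k β s : ℝ) : ℝ := (bif f then 6 else 8) * k - 3 * β + (bif f then s / 2 else 0)

/-- a limit -/
def yc0 (X : XD κ (lam ⊕ lam)) : X.C := ⟨⟨0, 0, 0, 0, 0⟩, 0, 0, 0⟩

variable {ZL ZR : Mf 4} {bL : BG κ (lam ⊕ lam) ZL} {bR : BG κ (lam ⊕ lam) ZR} {S : Scene Lm}
  {i : S.L} {m : Mx bL bR S i} {a : S.A} {U : Set S.X.M}

theorem Mx.OK.ed (o : m.OK a U) {P} (j : EdP m.c P) : j.1.1.1 = a := o.cyl.le j.1.1.2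

theorem Mx.OK.pc (o : m.OK a U) (e : Bool) : ∀ ρ ∈ ({m.ρ e} : Set _), S.M.sys.Piece m.c.1 ρ :=
  fun _ h => h ▸ ((o.ins _).2 ⟨e, rfl⟩).1

theorem Mx.OK.ne (o : m.OK a U) : m.ρ false ≠ m.ρ true := fun e => by
  simpa [o.re] using congrFun e a

/-- **the two sides of `a`** -/
theorem Mx.OK.two (o : m.OK a U) (L : IxL κ (lam ⊕ lam) 8) (hR : RadStmt Lm) {β sg l2 : ℝ}
    (nb : S.Nb i U β sg l2) (okL : ∀ e, bL.OK (spO e bL.O)) (okR : ∀ e, bR.OK (spO e bR.O))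
    {X : XD κ (lam ⊕ lam)} (hX : ∃ j, (bR.E j).X = X) {β₀ : X.C} {xL xR γL γR}
    (hL : ∀ j, HEq (γL j) β₀) (hR' : ∀ j, HEq (γR j) β₀) (sL : bL.Std xL γL) (sR : bR.Std xR γR)
    {δ : ℝ} (h0 : 0 < δ) (h1 : δ ≤ Cht98.dl0) {f : Bool} {e dL dR : ℤ}
    (hF : Fz κ (lam ⊕ lam) 8 X f β₀ δ) (hc : X.bg.Ix (spO f univ) (cy β₀) 8 δ e)
    (iL : bL.Ix (spO f bL.O) xL 8 δ dL) (iR : bR.Ix (spO f bR.O) xR 8 δ dR) :
    (∃ n : ℤ, bL.kap bL.O xL + bR.kap bR.O xR = (l2 - sg) / 4 + n) ∧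
      (dL : ℝ) + dR = fm f (bL.kap bL.O xL + bR.kap bR.O xR) β (l2 - sg) + e := by
  obtain rfl : X = jX m.J a := by
    obtain ⟨j, rfl⟩ := hX
    exact (GP.Mt.X_eq (o.gR.mt j)).trans (congrArg (jX m.J) (o.ed _))
  let γ : ∀ a', (jX m.J a').C := update (fun _ => yc0 _) a β₀
  have hγ : γ a = β₀ := update_self _ _ _
  have hq : ∀ {P} (j : EdP m.c P), HEq β₀ (γ j.1.1.1) := fun j => by
    rw [o.ed j, hγ]
  have ok := fun e => jBG_ok1 o.rt.ok m.b (o.pc e)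
  have ad := admJ o.rt.hW o.rt.hΛ o.rt.hm m.b
  have fz : ∀ {P} (j : EdP m.c P), Fz κ (lam ⊕ lam) 8 (jX m.J j.1.1.1) f (γ j.1.1.1) δ := fun j => by
    rw [o.ed j, hγ]; exact hF
  obtain ⟨x, s, k, q⟩ := ixt (β' := fun j => γ j.1.1.1) L m.pL o.gL okL (ok false) ad
    (fun j => (hL j).trans (hq _)) sL
  obtain ⟨x', s', k', q'⟩ := ixt (β' := fun j => γ j.1.1.1) L m.pR o.gR okR (ok true) ad
    (fun j => (hR' j).trans (hq _)) sR
  obtain ⟨d, hd⟩ := rz' L (ok false f) s h0 h1 fz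
  obtain ⟨d', hd'⟩ := rz' L (ok true f) s' h0 h1 fz
  obtain rfl := q _ _ _ _ iL hd
  obtain rfl := q' _ _ _ _ iR hd'
  have e1 : {ρ | S.In m.c m.π₀ ρ} = {m.ρ false, m.ρ true} := by
    ext ρ; simp [o.ins]
  have e2 : cylW m.c ∩ S.M.sys.inn m.π₀ = {a} := by
    rw [o.cyl]; exact inter_eq_left.2 (singleton_subset_iff.2 o.inn)
  have R := hR S i m.W m.Λ _ _ _ _ _ m.J m.c m.c₀ m.b m.π₀ β sg l2 o.rt (o.hU ▸ nb)
    (fun ρ => if ρ = m.ρ false then x else x') γ (fun ρ hρ => by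
      obtain ⟨_ | _, rfl⟩ := (o.ins _).1 hρ
      · rwa [if_pos rfl]
      · rwa [if_neg o.ne.symm]) δ f (fun ρ => if ρ = m.ρ false then dL else dR) (fun _ => e) h0 h1
    (fun a' ha => by obtain rfl := e2.le ha; rw [hγ]; exact ⟨hF, hc⟩) fun ρ hρ => by
      obtain ⟨_ | _, rfl⟩ := (o.ins _).1 hρ
      · rwa [if_pos rfl, if_pos rfl]
      · rwa [if_neg o.ne.symm, if_neg o.ne.symm]
  rw [e1, e2, finsum_mem_pair o.ne, finsum_mem_pair o.ne, finsum_mem_singleton, if_pos rfl,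
    if_pos rfl, if_neg o.ne.symm, if_neg o.ne.symm, ← un_one, ← un_one] at R
  rw [k, k']
  exact R

end Crest.Agent.X212.Hd82
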